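import Crest.Agent.R241.SF.Cut

/-! Block D, part 2: a chain inside the image of a bi-Lipschitz chart is a chart action with integer density. -/

open MeasureTheory Set Filter Topology
open Crest.GeometryTopology.MetricCurrent
open Crest.GeometryTopology.Submanifold (Euc)
open scoped ENNReal NNReal

noncomputable section

namespace Crest.Agent.R241

universe u

/-- summing integer multiplicities -/
theorem sf_mult {α : Type*} [MeasurableSpace α] {μ : Measure α} {A : ℕ → Set α} (hA : ∀ i, MeasurableSet (A i))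
    (hfin : ∑' i, μ (A i) ≠ ⊤) {t : ℕ → α → ℤ} (ht : ∀ i y, |(t i y : ℝ)| ≤ 1)
    (hm : ∀ i, AEMeasurable (fun y => (t i y : ℝ)) (μ.restrict (A i))) :
    ∃ θ : α → ℤ, Integrable (fun y => (θ y : ℝ)) μ ∧ ∀ F : α → ℝ, AEStronglyMeasurable F μ →
      (∃ M, ∀ᵐ y ∂μ, ‖F y‖ ≤ M) → HasSum (fun i => ∫ y in A i, t i y * F y ∂μ) (∫ y, θ y * F y ∂μ) := by
  let g : ℕ → α → ℝ := fun i => (A i).indicator fun y => (t i y : ℝ)
  have hg : ∀ i, AEMeasurable (g i) μ := fun i => (aemeasurable_indicator_iff (hA i)).2 (hm i)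
  have hg1 : ∀ i y, ‖g i y‖ₑ ≤ (A i).indicator 1 y := fun i y => by
    by_cases hy : y ∈ A i
    · simp only [g, indicator_of_mem hy, Pi.one_apply, ← ofReal_norm]
      exact ENNReal.ofReal_le_one.2 (ht i y)
    · simp [g, hy]
  have hg2 : ∀ i, ∫⁻ y, ‖g i y‖ₑ ∂μ ≤ μ (A i) := fun i =>
    (lintegral_mono (hg1 i)).trans_eq (lintegral_indicator_one (hA i))
  have e : ∀ᵐ y ∂μ, ((∑ᶠ i, (A i).indicator (t i) y : ℤ) : ℝ) = ∑' i, g i y := by
    filter_upwards [ae_finite_setOfPred_mem hfin] with y hy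
    have h1 : (Function.support fun i => (A i).indicator (t i) y).Finite :=
      hy.subset fun i hi => mem_of_indicator_ne_zero (s := A i) hi
    have h2 : (Function.support fun i => g i y).Finite :=
      hy.subset fun i hi => mem_of_indicator_ne_zero (s := A i) hi
    rw [tsum_eq_finsum h2]
    refine ((Int.castAddHom ℝ).map_finsum h1).trans (finsum_congr fun i => ?_)
    by_cases hi : y ∈ A i <;> simp [g, hi]
  refine ⟨fun y => ∑ᶠ i, (A i).indicator (t i) y, Integrable.congr ⟨(AEMeasurable.tsum hg).aestronglyMeasurable, ?_⟩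
    (EventuallyEq.symm e), fun F hF ⟨M, hM⟩ => ?_⟩
  · refine lt_of_le_of_lt (lintegral_mono fun y => enorm_tsum_le_tsum_enorm) ?_
    rw [lintegral_tsum fun i => (hg i).enorm]
    exact (ENNReal.tsum_le_tsum hg2).trans_lt hfin.lt_top
  have hi : ∀ i, Integrable (g i) μ := fun i => ⟨(hg i).aestronglyMeasurable,
    (hg2 i).trans_lt ((ENNReal.le_tsum (f := fun i => μ (A i)) i).trans_lt hfin.lt_top)⟩
  have h1 := hasSum_integral_of_summable_integral_norm (F := fun i y => g i y * F y)
    (fun i => (hi i).mul_bdd hF hM) (by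
      refine Summable.of_nonneg_of_le (fun i => integral_nonneg fun _ => norm_nonneg _) (fun i => ?_)
        ((ENNReal.summable_toReal hfin).mul_right (max M 0))
      calc ∫ y, ‖g i y * F y‖ ∂μ ≤ ∫ y, ‖g i y‖ * max M 0 ∂μ := by
            refine integral_mono_of_nonneg (Eventually.of_forall fun _ => norm_nonneg _)
              ((hi i).norm.mul_const _) ?_
            filter_upwards [hM] with y hy
            rw [norm_mul]
            exact mul_le_mul_of_nonneg_left (hy.trans (le_max_left _ _)) (norm_nonneg _)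
        _ ≤ _ := by
            rw [integral_mul_const, integral_norm_eq_lintegral_enorm (hi i).1]
            exact mul_le_mul_of_nonneg_right (ENNReal.toReal_mono
              (ne_top_of_le_ne_top hfin (ENNReal.le_tsum i)) (hg2 i)) (le_max_right _ _))
  have h2 : ∀ i, ∫ y in A i, t i y * F y ∂μ = ∫ y, g i y * F y ∂μ := fun i => by
    rw [← integral_indicator (hA i)]
    congr 1
    funext y
    by_cases hy : y ∈ A i <;> simp [g, hy]
  have h3 : ∫ y, ((∑ᶠ i, (A i).indicator (t i) y : ℤ) : ℝ) * F y ∂μ = ∫ y, ∑' i, g i y * F y ∂μ := by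
    refine integral_congr_ae ?_
    filter_upwards [e] with y hy
    rw [hy, tsum_mul_right]
  simpa only [h2, h3] using h1

variable {X : Type u} [MetricSpace X] {k : ℕ}

theorem CoLip.lip_invFunOn {E : Set (Euc k)} {φ : Euc k → X} (h : CoLip E φ) : ∃ C : ℝ≥0,
    LipschitzOnWith C (Function.invFunOn φ E) (φ '' E) := by
  obtain ⟨C, hC⟩ := h
  refine ⟨C.toNNReal, LipschitzOnWith.of_dist_le_mul fun y hy y' hy' => ?_⟩
  have h1 := hC _ (Function.invFunOn_mem hy) _ (Function.invFunOn_mem hy')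
  rw [Function.invFunOn_eq hy, Function.invFunOn_eq hy'] at h1
  exact h1.trans (mul_le_mul_of_nonneg_right (Real.le_coe_toNNReal C) dist_nonneg)

/-- comparison of two bi-Lipschitz charts, the image of the second inside the image of the first -/
theorem sf_change {E E' : Set (Euc k)} {φ φ' : Euc k → X} (hE : MeasurableSet E) (hE' : MeasurableSet E')
    (hφ : LipschitzOnWith 1 φ E) (hφ' : LipschitzOnWith 1 φ' E') {C : ℝ≥0} (hc : InjOn φ E)
    (hC : LipschitzOnWith C (Function.invFunOn φ E) (φ '' E)) (hc' : CoLip E' φ') (hsub : MapsTo φ' E' (φ '' E)) :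
    ∃ (A : Set (Euc k)) (t : Euc k → ℤ), MeasurableSet A ∧ A ⊆ E ∧ volume A ≤ (C : ℝ≥0∞) ^ k * volume E' ∧
      (∀ y, |(t y : ℝ)| ≤ 1) ∧ AEMeasurable (fun y => (t y : ℝ)) (volume.restrict A) ∧
      ∀ (f : X → ℝ) (π : Fin k → X → ℝ), (∀ a, Lip (π a)) →
        ∫ z in E', f (φ' z) * jacOn E' φ' π z = ∫ y in A, t y * (f (φ y) * jacOn E φ π y) := by
  have l1 : LipschitzOnWith (C * 1) (Function.invFunOn φ E ∘ φ') E' := hC.comp hφ' hsub
  have i1 : InjOn (Function.invFunOn φ E ∘ φ') E' :=
    (Function.invFunOn_injOn_image φ E).comp hc'.injOn hsub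
  obtain ⟨C', hC'⟩ := hc'.lip_invFunOn
  obtain ⟨A, hA⟩ : ∃ A, A = (Function.invFunOn φ E ∘ φ') '' E' := ⟨_, rfl⟩
  have hAm : MeasurableSet A := hA ▸ hE'.image_of_continuousOn_injOn l1.continuousOn i1
  have hAE : A ⊆ E := by
    rw [hA]
    rintro _ ⟨z, hz, rfl⟩
    exact Function.invFunOn_mem (hsub hz)
  have m1 : MapsTo φ A (φ' '' E') := by
    rw [hA]
    rintro _ ⟨z, hz, rfl⟩
    exact ⟨z, hz, (Function.invFunOn_eq (hsub hz)).symm⟩
  have l2 : LipschitzOnWith (C' * 1) (Function.invFunOn φ' E' ∘ φ) A := hC'.comp (hφ.mono hAE) m1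
  have i2 : InjOn (Function.invFunOn φ' E' ∘ φ) A :=
    (Function.invFunOn_injOn_image φ' E').comp (hc.mono hAE) m1
  have im : (Function.invFunOn φ' E' ∘ φ) '' A = E' := by
    refine Subset.antisymm ?_ fun z hz => ⟨_, hA ▸ mem_image_of_mem _ hz, ?_⟩
    · rintro _ ⟨y, hy, rfl⟩
      exact Function.invFunOn_mem (m1 hy)
    · simp only [Function.comp, Function.invFunOn_eq (hsub hz)]
      exact hc'.injOn.leftInvOn_invFunOn hz
  have cast : ∀ s : SignType, ((s : ℤ) : ℝ) = s := fun s => by cases s <;> simp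
  refine ⟨A, fun y => (SignType.sign (fderivWithin ℝ (Function.invFunOn φ' E' ∘ φ) A y).det : SignType), hAm, hAE,
    ?_, fun y => ?_, ?_, fun f π hπ => ?_⟩
  · simpa [hA] using volume_image_le l1
  · beta_reduce
    generalize SignType.sign (fderivWithin ℝ (Function.invFunOn φ' E' ∘ φ) A y).det = s
    cases s <;> simp
  · refine Measurable.comp_aemeasurable (g := fun s : ℝ => (((SignType.sign s : SignType) : ℤ) : ℝ)) ?_
      (aemeasurable_det_fderivWithin hAm l2)
    refine Monotone.measurable fun a b hab => ?_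
    have := SignType.sign.monotone hab
    revert this
    generalize SignType.sign a = s
    generalize SignType.sign b = s'
    cases s <;> cases s' <;> simp
  · choose L hL using hπ
    have h1 := integral_jacE_image hAm l2 i2 (g := fun a w => π a (φ' w))
      (fun a => by rw [im]; exact (hL a).comp_lipschitzOnWith hφ') fun w => f (φ' w)
    rw [im] at h1
    rw [jacOn_eq, h1]
    refine integral_congr_ae ?_
    filter_upwards [sf_jacOn_mono hE hAm hAE hφ fun a => ⟨_, hL a⟩, ae_restrict_mem hAm] with y h2 hy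
    have e : ∀ y ∈ A, φ' ((Function.invFunOn φ' E' ∘ φ) y) = φ y := fun y hy => Function.invFunOn_eq (m1 hy)
    rw [← h2, cast, e y hy, mul_comm (f _), mul_assoc, jacOn_eq]
    unfold jacE
    congr 4
    funext a j
    rw [fderivWithin_congr' (f := fun w => π a (φ w)) (fun w hw => by simp only [e w hw]) hy]

theorem Ch.exists_mult (d : Ch X k) (hd : ∀ i, CoLip (d.E i) (d.φ i)) {E : Set (Euc k)} {φ : Euc k → X}
    (hE : MeasurableSet E) (hφ : LipschitzOnWith 1 φ E) (hc : CoLip E φ) (hin : d.In (φ '' E)) :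
    ∃ θ : Euc k → ℤ, Integrable (fun z => (θ z : ℝ)) (volume.restrict E) ∧ chartAction E φ θ = d.cur := by
  obtain ⟨C, hC⟩ := hc.lip_invFunOn
  choose A t h1 h2 h3 h4 h5 h6 using fun i =>
    sf_change hE (d.meas i) hφ (d.lip i) hc.injOn hC (hd i) (hin i)
  have hs : ∀ i, ∃ s : ℤ, (s : ℝ) = d.sg i := fun i =>
    (d.hsg i).elim (fun h => ⟨1, by simp [h]⟩) fun h => ⟨-1, by simp [h]⟩
  choose s hs using hs
  have r : ∀ i, (volume.restrict E).restrict (A i) = volume.restrict (A i) := fun i =>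
    Measure.restrict_restrict_of_subset (h2 i)
  obtain ⟨θ, a1, a2⟩ := sf_mult (μ := volume.restrict E) h1 (t := fun i y => s i * t i y)
    (ne_top_of_le_ne_top (ENNReal.mul_ne_top (ENNReal.pow_ne_top (n := k) (ENNReal.coe_ne_top (r := C))) d.fin) (by
      rw [← ENNReal.tsum_mul_left]
      exact ENNReal.tsum_le_tsum fun i => (Measure.restrict_le_self _).trans (h3 i)))
    (fun i y => by rw [Int.cast_mul, abs_mul, hs, d.abs_sg, one_mul]; exact h4 i y)
    (fun i => by simpa only [r, Int.cast_mul] using (h5 i).const_mul (s i : ℝ))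
  refine ⟨θ, a1, funext₂ fun f π => ?_⟩
  unfold chartAction Ch.cur
  split_ifs with h
  swap
  · rfl
  obtain ⟨b1, b2⟩ := sf_bdd hE hφ h
  have a3 := a2 _ b1 b2
  simp only [r, Int.cast_mul, mul_assoc, integral_const_mul, hs, ← h6 _ f π h.2.2] at a3
  simp only [mul_assoc]
  exact a3.unique (d.hasSum_act h)

end Crest.Agent.R241
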