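import Crest.Agent.R241.Sum

/-! Block D, part 1: every chain has the same action as a chain with bounded bi-Lipschitz charts. -/

open MeasureTheory Set Filter Topology
open Crest.GeometryTopology.MetricCurrent
open Crest.GeometryTopology.Submanifold (Euc)
open scoped ENNReal NNReal

noncomputable section

namespace Crest.Agent.R241

universe u

variable {X : Type u} [MetricSpace X] {k : ℕ}

/-- co-Lipschitz on `E` -/
def CoLip (E : Set (Euc k)) (φ : Euc k → X) : Prop :=
  ∃ C : ℝ, ∀ z ∈ E, ∀ w ∈ E, dist z w ≤ C * dist (φ z) (φ w)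

theorem CoLip.mono {E E' : Set (Euc k)} {φ : Euc k → X} (h : CoLip E φ) (hE : E' ⊆ E) : CoLip E' φ :=
  h.imp fun _ hC z hz w hw => hC z (hE hz) w (hE hw)

theorem CoLip.injOn {E : Set (Euc k)} {φ : Euc k → X} (h : CoLip E φ) : InjOn φ E := fun z hz w hw e => by
  obtain ⟨C, hC⟩ := h
  have := hC z hz w hw
  rw [e, dist_self, mul_zero] at this
  exact dist_le_zero.1 this

/-- at a point where the chart collapses distances, all Jacobians vanish -/
theorem sf_jac_zero {E : Set (Euc k)} {φ : Euc k → X} {π : Fin k → X → ℝ} (hπ : ∀ a, Lip (π a)) {z : Euc k}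
    (hd : ∀ a, DifferentiableWithinAt ℝ (fun w => π a (φ w)) E z)
    (hz : ∀ m : ℕ, ∃ w ∈ E, dist w z < 1 / (m + 1 : ℝ) ∧ (m + 1 : ℝ) * dist (φ w) (φ z) < dist w z) :
    jacOn E φ π z = 0 := by
  by_contra hne
  let D : Euc k →L[ℝ] (Fin k → ℝ) := ContinuousLinearMap.pi fun a => fderivWithin ℝ (fun w => π a (φ w)) E z
  have hker : LinearMap.ker (D : Euc k →ₗ[ℝ] (Fin k → ℝ)) = ⊥ := by
    rw [LinearMap.ker_eq_bot']
    intro v hv
    have h1 : (Matrix.of fun a j => fderivWithin ℝ (fun w => π a (φ w)) E z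
        (EuclideanSpace.single j 1)).mulVec v.ofLp = 0 := by
      funext a
      have h2 := congrFun hv a
      have h3 : v = ∑ j, v j • EuclideanSpace.single j (1 : ℝ) := by
        simpa using ((EuclideanSpace.basisFun (Fin k) ℝ).sum_repr v).symm
      rw [h3] at h2
      simpa [D, Matrix.mulVec, dotProduct, mul_comm] using h2
    simpa using Matrix.eq_zero_of_mulVec_eq_zero hne h1
  obtain ⟨K, hK, hA⟩ := LinearMap.exists_antilipschitzWith _ hker
  choose L hL using hπ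
  have hD : HasFDerivWithinAt (fun w a => π a (φ w)) D E z :=
    hasFDerivWithinAt_pi.2 fun a => (hd a).hasFDerivWithinAt
  have hK' : (0 : ℝ) < K := hK
  have h1 := hD.isLittleO.bound (show 0 < 1 / (4 * (K : ℝ)) by positivity)
  obtain ⟨δ, hδ, h1⟩ := Metric.mem_nhdsWithin_iff.1 h1
  obtain ⟨M, hM⟩ : ∃ M : ℝ, 0 ≤ M ∧ ∀ a, (L a : ℝ) ≤ M :=
    ⟨∑ a, L a, by positivity, fun a => Finset.single_le_sum (f := fun a => (L a : ℝ))
      (fun _ _ => NNReal.coe_nonneg _) (Finset.mem_univ a)⟩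
  obtain ⟨m, hm⟩ := exists_nat_gt (max (1 / δ) (4 * K * M))
  obtain ⟨w, hw, h2, h3⟩ := hz m
  have hm1 : 1 / δ < m + 1 := by linarith [le_max_left (1 / δ) (4 * K * M)]
  have hm2 : 4 * K * M ≤ m + 1 := by linarith [le_max_right (1 / δ) (4 * K * M)]
  have h4 : ‖(fun a => π a (φ w)) - (fun a => π a (φ z)) - D (w - z)‖ ≤ 1 / (4 * K) * ‖w - z‖ :=
    h1 ⟨h2.trans ((one_div_lt (by positivity) hδ).2 hm1), hw⟩
  have h5 : ‖(fun a => π a (φ w)) - fun a => π a (φ z)‖ ≤ M * dist (φ w) (φ z) :=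
    (pi_norm_le_iff_of_nonneg (mul_nonneg hM.1 dist_nonneg)).2 fun a =>
      ((hL a).dist_le_mul _ _).trans (mul_le_mul_of_nonneg_right (hM.2 a) dist_nonneg)
  have h6 : ‖w - z‖ ≤ K * ‖D (w - z)‖ := by simpa using hA.le_mul_dist (w - z) 0
  have h7 : ‖D (w - z)‖ ≤ M * dist (φ w) (φ z) + 1 / (4 * K) * ‖w - z‖ := by
    have := norm_sub_norm_le (D (w - z)) ((fun a => π a (φ w)) - fun a => π a (φ z))
    rw [norm_sub_rev (D _)] at this
    linarith
  have h8 := h6.trans (mul_le_mul_of_nonneg_left h7 hK'.le)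
  rw [mul_add, ← mul_assoc (K : ℝ) (1 / _), show (K : ℝ) * (1 / (4 * K)) = 1 / 4 by field_simp] at h8
  have h9 := mul_le_mul_of_nonneg_right hm2 (dist_nonneg (x := φ w) (y := φ z))
  rw [dist_eq_norm w z] at h3
  linarith [norm_nonneg (w - z)]

theorem sf_pieces {E : Set (Euc k)} (hE : MeasurableSet E) {φ : Euc k → X} (hφ : LipschitzOnWith 1 φ E) :
    ∃ P : ℕ → Set (Euc k), (∀ n, MeasurableSet (P n)) ∧ (∀ n, P n ⊆ E) ∧ Pairwise (Function.onFun Disjoint P) ∧
      (∀ n, Bornology.IsBounded (P n)) ∧ (∀ n, CoLip (P n) φ) ∧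
      ∀ π : Fin k → X → ℝ, (∀ a, Lip (π a)) → ∀ᵐ z ∂volume.restrict E, z ∉ ⋃ n, P n → jacOn E φ π z = 0 := by
  obtain ⟨q, hq⟩ := TopologicalSpace.exists_dense_seq (Euc k)
  let B : ℕ → Set (Euc k) := fun m => Subtype.val '' {z : E | ∀ w ∈ E, 1 / (m + 1 : ℝ) ≤ dist w z ∨
    dist w z ≤ (m + 1 : ℝ) * dist (φ w) (φ z)}
  have hB : ∀ m, MeasurableSet (B m) := fun m => by
    refine hE.subtype_image (IsClosed.measurableSet ?_)
    have hc : Continuous fun z : E => φ z := continuousOn_iff_continuous_domRestrict.1 hφ.continuousOn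
    simp only [ofPred_forall, ofPred_or]
    exact isClosed_iInter fun w => isClosed_iInter fun _ =>
      (isClosed_le continuous_const (by fun_prop)).union
        (isClosed_le (by fun_prop) (continuous_const.mul (continuous_const.dist hc)))
  let A : ℕ → Set (Euc k) := fun n => B n.unpair.1 ∩ Metric.ball (q n.unpair.2) (1 / (n.unpair.1 + 1 : ℝ) / 2)
  have hBE : ∀ m, B m ⊆ E := fun m => Subtype.coe_image_subset _ _
  refine ⟨disjointed A, MeasurableSet.disjointed fun n => (hB _).inter measurableSet_ball,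
    fun n => (disjointed_subset A n).trans (inter_subset_left.trans (hBE _)), disjoint_disjointed A,
    fun n => Metric.isBounded_ball.subset ((disjointed_subset A n).trans inter_subset_right),
    fun n => CoLip.mono ⟨n.unpair.1 + 1, ?_⟩ (disjointed_subset A n), fun π hπ => ?_⟩
  · rintro z ⟨hz, hz'⟩ _ ⟨⟨w, hw, rfl⟩, hw'⟩
    refine (hw z (hBE _ hz)).resolve_left (not_le.2 ?_)
    have := dist_triangle_right z w (q n.unpair.2)
    rw [Metric.mem_ball] at hz' hw'
    linarith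
  · have hd : ∀ᵐ z ∂volume.restrict E, ∀ a, DifferentiableWithinAt ℝ (fun w => π a (φ w)) E z :=
      ae_all_iff.2 fun a => ((hπ a).choose_spec.comp_lipschitzOnWith hφ).ae_differentiableWithinAt hE
    filter_upwards [hd, ae_restrict_mem hE] with z hz hzE hn
    refine sf_jac_zero hπ hz fun m => ?_
    by_contra hc
    push Not at hc
    obtain ⟨j, hj⟩ := hq.exists_dist_lt z (show 0 < 1 / (m + 1 : ℝ) / 2 by positivity)
    refine hn ?_
    rw [iUnion_disjointed]
    refine mem_iUnion.2 ⟨Nat.pair m j, ?_⟩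
    simp only [A, Nat.unpair_pair]
    exact ⟨⟨⟨z, hzE⟩, fun w hw => (le_or_gt _ _).imp_right (hc w hw), rfl⟩, hj⟩

theorem sf_jacOn_mono {E E' : Set (Euc k)} (hE : MeasurableSet E) (hE' : MeasurableSet E') (h : E' ⊆ E)
    {φ : Euc k → X} {L : ℝ≥0} (hφ : LipschitzOnWith L φ E) {π : Fin k → X → ℝ} (hπ : ∀ a, Lip (π a)) :
    ∀ᵐ z ∂volume.restrict E', jacOn E' φ π z = jacOn E φ π z := by
  filter_upwards [ae_all_iff.2 fun a =>
    ae_fderivWithin_mono hE hE' h ((hπ a).choose_spec.comp_lipschitzOnWith hφ)] with z hz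
  unfold jacOn
  congr 1
  ext a j
  exact congrArg (fun D : Euc k →L[ℝ] ℝ => D (EuclideanSpace.single j 1)) (hz a)

/-- the integrand of a chart action is a.e. measurable and bounded -/
theorem sf_bdd {E : Set (Euc k)} (hE : MeasurableSet E) {φ : Euc k → X} {L : ℝ≥0} (hφ : LipschitzOnWith L φ E)
    {f : X → ℝ} {π : Fin k → X → ℝ} (h : IsTestPair f π) :
    AEStronglyMeasurable (fun z => f (φ z) * jacOn E φ π z) (volume.restrict E) ∧
      ∃ M, ∀ᵐ z ∂volume.restrict E, ‖f (φ z) * jacOn E φ π z‖ ≤ M := by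
  obtain ⟨⟨K, hK⟩, ⟨C, hC⟩, hπ⟩ := h
  choose L' hL' using hπ
  have h1 := fun a => (hL' a).comp_lipschitzOnWith hφ
  refine ⟨((hK.continuous.comp_continuousOn hφ.continuousOn).aestronglyMeasurable hE).mul
    (aemeasurable_jacE hE h1).aestronglyMeasurable, C * ∏ a, ((L' a * L : ℝ≥0) : ℝ), ?_⟩
  filter_upwards [ae_abs_jacE_le hE h1] with z hz
  rw [norm_mul]
  exact mul_le_mul (hC _) hz (norm_nonneg _) ((abs_nonneg _).trans (hC (φ z)))

theorem Ch.exists_biLip (c : Ch X k) : ∃ d : Ch X k, (∀ i, Bornology.IsBounded (d.E i)) ∧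
    (∀ i, CoLip (d.E i) (d.φ i)) ∧ ∀ f π, IsTestPair f π → d.act f π = c.act f π := by
  choose P h1 h2 h3 h4 h5 h6 using fun i => sf_pieces (c.meas i) (c.lip i)
  let e := Nat.pairEquiv.symm
  let d : Ch X k :=
    { E := fun l => P (e l).1 (e l).2
      φ := fun l => c.φ (e l).1
      sg := fun l => c.sg (e l).1
      meas := fun _ => h1 _ _
      lip := fun _ => (c.lip _).mono (h2 _ _)
      hsg := fun _ => c.hsg _
      fin := by
        rw [e.tsum_eq fun p => volume (P p.1 p.2), ENNReal.tsum_prod (f := fun i n => volume (P i n))]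
        refine ne_top_of_le_ne_top c.fin (ENNReal.tsum_le_tsum fun i => ?_)
        rw [← measure_iUnion (h3 i) (h1 i)]
        exact measure_mono (iUnion_subset (h2 i)) }
  refine ⟨d, fun _ => h4 _ _, fun _ => h5 _ _, fun f π h => ?_⟩
  have a1 := (e.hasSum_iff (f := fun p : ℕ × ℕ => c.sg p.1 *
    ∫ z in P p.1 p.2, f (c.φ p.1 z) * jacOn (P p.1 p.2) (c.φ p.1) π z)).1 (d.hasSum_act h)
  refine (a1.prod_fiberwise fun i => HasSum.mul_left _ ?_).unique (c.hasSum_act h)
  obtain ⟨b1, M, b2⟩ := sf_bdd (c.meas i) (c.lip i) h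
  have : IsFiniteMeasure (volume.restrict (c.E i)) :=
    isFiniteMeasure_restrict.2 (ne_top_of_le_ne_top c.fin (ENNReal.le_tsum i))
  have b3 : IntegrableOn (fun z => f (c.φ i z) * jacOn (c.E i) (c.φ i) π z) (c.E i) :=
    Integrable.of_bound b1 M b2
  have b4 := hasSum_integral_iUnion (h1 i) (h3 i) (b3.mono_set (iUnion_subset (h2 i)))
  have b5 : ∫ z in c.E i, f (c.φ i z) * jacOn (c.E i) (c.φ i) π z =
      ∫ z in ⋃ n, P i n, f (c.φ i z) * jacOn (c.E i) (c.φ i) π z := by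
    refine setIntegral_eq_of_subset_of_ae_diff_eq_zero (c.meas i).nullMeasurableSet (iUnion_subset (h2 i)) ?_
    filter_upwards [(ae_restrict_iff' (c.meas i)).1 (h6 i π h.2.2)] with z hz hz'
    rw [hz hz'.1 hz'.2, mul_zero]
  rw [b5]
  have b6 : ∀ n, ∫ z in P i n, f (c.φ i z) * jacOn (P i n) (c.φ i) π z =
      ∫ z in P i n, f (c.φ i z) * jacOn (c.E i) (c.φ i) π z := fun n => integral_congr_ae <| by
    filter_upwards [sf_jacOn_mono (c.meas i) (h1 i n) (h2 i n) (c.lip i) h.2.2] with z hz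
    rw [hz]
  simpa only [b6] using b4

end Crest.Agent.R241
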